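import Vale.Agent.Lib.P060.Defs

namespace Vale.Agent.Lib.P060

open Finset

variable {V : Type*} [Fintype V] [DecidableEq V]

/-- U5. Colouring: the pairs `{x, m x}` are non-edges of `G`, so giving `m x` the colour of `x` and
every other vertex its own colour is a proper colouring with colour set `{v // v ∉ Y}`. -/
theorem colorable_of_matching (G : SimpleGraph V) (X Y : Finset V) (m : V → V)
    (hXY : Disjoint X Y) (hm : Set.BijOn m X Y) (hadj : ∀ x ∈ X, ¬ G.Adj x (m x)) :
    G.Colorable (Fintype.card V - Y.card) := by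
  classical
  have hcard : Fintype.card {v : V // v ∉ Y} = Fintype.card V - Y.card := by
    rw [Fintype.card_subtype_compl]
    simp
  have hXnY : ∀ x ∈ X, x ∉ Y := fun x hx => Finset.disjoint_left.1 hXY hx
  -- partner in `X` of a vertex of `Y`
  have hpre : ∀ y ∈ Y, ∃ x ∈ X, m x = y := by
    intro y hy
    obtain ⟨x, hx, hxy⟩ := hm.surjOn (by exact_mod_cast hy : y ∈ (Y : Set V))
    exact ⟨x, by exact_mod_cast hx, hxy⟩
  choose! p hpX hpm using hpre
  let c : V → {v : V // v ∉ Y} := fun v =>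
    if h : v ∈ Y then ⟨p v, hXnY _ (hpX v h)⟩ else ⟨v, h⟩
  have hc1 : ∀ v (h : v ∈ Y), (c v).1 = p v := by
    intro v h
    simp [c, h]
  have hc2 : ∀ v (h : v ∉ Y), (c v).1 = v := by
    intro v h
    simp [c, h]
  have hvalid : ∀ u v, G.Adj u v → c u ≠ c v := by
    intro u v huv hcuv
    have hval : (c u).1 = (c v).1 := congrArg Subtype.val hcuv
    by_cases hu : u ∈ Y <;> by_cases hv : v ∈ Y
    · rw [hc1 u hu, hc1 v hv] at hval
      have : u = v := by rw [← hpm u hu, ← hpm v hv, hval]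
      exact huv.ne this
    · rw [hc1 u hu, hc2 v hv] at hval
      have h1 := hadj (p u) (hpX u hu)
      rw [hpm u hu, hval] at h1
      exact h1 huv.symm
    · rw [hc2 u hu, hc1 v hv] at hval
      have h1 := hadj (p v) (hpX v hv)
      rw [hpm v hv, ← hval] at h1
      exact h1 huv
    · rw [hc2 u hu, hc2 v hv] at hval
      exact huv.ne hval
  have hcol : G.Colorable (Fintype.card {v : V // v ∉ Y}) :=
    (SimpleGraph.Coloring.mk c (fun {u v} h => hvalid u v h)).colorable
  rwa [hcard] at hcol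

/-- U6. Minor: branch sets `{x, f x}` for `x ∈ X` and `{u}` for `u ∉ X ∪ Y`, indexed by
`{v // v ∉ Y}` and transported to `Fin (card V - |Y|)`. -/
theorem minor_of_repairing (G : SimpleGraph V) (X Y : Finset V) (f : V → V)
    (_hXY : Disjoint X Y) (hf : Set.BijOn f X Y) (hadj : ∀ x ∈ X, G.Adj x (f x))
    (hdom : ∀ x ∈ X, ∀ v, v ≠ x → v ≠ f x → G.Adj x v ∨ G.Adj (f x) v)
    (hclique : ∀ u v, u ∉ X → u ∉ Y → v ∉ X → v ∉ Y → u ≠ v → G.Adj u v) :
    HasCompleteMinor G (Fintype.card V - Y.card) := by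
  classical
  have hcard : Fintype.card {v : V // v ∉ Y} = Fintype.card V - Y.card := by
    rw [Fintype.card_subtype_compl]
    simp
  let e := Fintype.equivFinOfCardEq hcard
  let B0 : V → Set V := fun v => if v ∈ X then {v, f v} else {v}
  have hfY : ∀ x ∈ X, f x ∈ Y := fun x hx => by exact_mod_cast hf.mapsTo hx
  have hself : ∀ v, v ∈ B0 v := by
    intro v
    by_cases hv : v ∈ X <;> simp [B0, hv]
  have hmem : ∀ v w, w ∈ B0 v → w = v ∨ (v ∈ X ∧ w = f v) := by
    intro v w hw
    by_cases hv : v ∈ X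
    · simp only [B0, hv, if_true, Set.mem_insert_iff, Set.mem_singleton_iff] at hw
      rcases hw with h | h
      · exact Or.inl h
      · exact Or.inr ⟨hv, h⟩
    · simp only [B0, hv, if_false, Set.mem_singleton_iff] at hw
      exact Or.inl hw
  have hconn : ∀ v, (G.induce (B0 v)).Connected := by
    intro v
    by_cases hv : v ∈ X
    · have : B0 v = {v, f v} := by simp [B0, hv]
      rw [this]
      exact SimpleGraph.induce_pair_connected_of_adj (hadj v hv)
    · have : B0 v = {v} := by simp [B0, hv]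
      rw [this]
      exact SimpleGraph.Connected.of_subsingleton
  have hdisj : ∀ v w, v ∉ Y → w ∉ Y → v ≠ w → Disjoint (B0 v) (B0 w) := by
    intro v w hv hw hvw
    rw [Set.disjoint_left]
    intro a ha hb
    rcases hmem v a ha with h1 | ⟨hvX, h1⟩ <;> rcases hmem w a hb with h2 | ⟨hwX, h2⟩
    · exact hvw (h1.symm.trans h2)
    · exact hv (h1 ▸ h2 ▸ hfY w hwX)
    · exact hw (h2 ▸ h1 ▸ hfY v hvX)
    · exact hvw (hf.injOn (by exact_mod_cast hvX) (by exact_mod_cast hwX) (h1.symm.trans h2))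
  have hfmem : ∀ v, v ∈ X → f v ∈ B0 v := by
    intro v hv
    simp [B0, hv]
  have hedge : ∀ v w, v ∉ Y → w ∉ Y → v ≠ w → ∃ x ∈ B0 v, ∃ y ∈ B0 w, G.Adj x y := by
    intro v w hv hw hvw
    by_cases hvX : v ∈ X
    · have hwf : w ≠ f v := fun h => hw (h ▸ hfY v hvX)
      rcases hdom v hvX w hvw.symm hwf with h | h
      · exact ⟨v, hself v, w, hself w, h⟩
      · exact ⟨f v, hfmem v hvX, w, hself w, h⟩
    · by_cases hwX : w ∈ X
      · have hvf : v ≠ f w := fun h => hv (h ▸ hfY w hwX)
        rcases hdom w hwX v hvw hvf with h | h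
        · exact ⟨v, hself v, w, hself w, h.symm⟩
        · exact ⟨v, hself v, f w, hfmem w hwX, h.symm⟩
      · exact ⟨v, hself v, w, hself w, hclique v w hvX hv hwX hw hvw⟩
  have hinj : ∀ i j : Fin (Fintype.card V - Y.card), i ≠ j → (e.symm i).1 ≠ (e.symm j).1 := by
    intro i j hij h
    exact hij (e.symm.injective (Subtype.ext h))
  refine ⟨fun i => B0 (e.symm i).1, fun i => hconn _, ?_, ?_⟩
  · intro i j hij
    exact hdisj _ _ (e.symm i).2 (e.symm j).2 (hinj i j hij)
  · intro i j hij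
    exact hedge _ _ (e.symm i).2 (e.symm j).2 (hinj i j hij)

end Vale.Agent.Lib.P060
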