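import Vale.Agent.Lib.P060.Main

namespace Vale.Agent.Lib.P060

open Finset

variable {V : Type*} [Fintype V] [DecidableEq V]

/-- Every graph on `n ≥ 4 D (D + 1)` vertices in which every vertex has at most `D` non-neighbours
has a `K_⌈n/2⌉` minor. -/
theorem half_minor (G : SimpleGraph V) [DecidableRel G.Adj] (D : ℕ)
    (hD : ∀ v, (univ.filter (fun w => w ≠ v ∧ ¬ G.Adj v w)).card ≤ D)
    (hN : 4 * D * (D + 1) ≤ Fintype.card V) :
    HasCompleteMinor G ((Fintype.card V + 1) / 2) := by
  classical
  have hD' : ∀ v, (univ.filter (fun w => Gᶜ.Adj v w)).card ≤ D := by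
    intro v
    refine le_trans (le_of_eq ?_) (hD v)
    congr 1
    ext w
    simp [SimpleGraph.compl_adj, ne_comm]
  set n := Fintype.card V with hn
  obtain ⟨X, -, hXc⟩ := exists_subset_card_eq (s := (univ : Finset V)) (n := n / 2)
    (by rw [card_univ]; omega)
  obtain ⟨Y, hYsub, hYc⟩ := exists_subset_card_eq (s := (univ \ X : Finset V)) (n := n / 2)
    (by rw [card_sdiff_of_subset (subset_univ _), card_univ, hXc]; omega)
  have hXY : Disjoint X Y := by
    rw [Finset.disjoint_left]
    intro a ha hb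
    exact (mem_sdiff.1 (hYsub hb)).2 ha
  have hcard : X.card = Y.card := by rw [hXc, hYc]
  have hK : 2 * (D + D * D) ≤ X.card := by
    rw [hXc]
    have : 4 * (D + D * D) ≤ n := by
      calc 4 * (D + D * D) = 4 * D * (D + 1) := by ring
        _ ≤ n := hN
    omega
  set R : V → V → Prop := fun x y => Gᶜ.Adj x y ∨ ∃ z, Gᶜ.Adj x z ∧ Gᶜ.Adj y z with hR
  have hRsymm : ∀ x y, R x y ↔ R y x := by
    intro x y
    simp only [hR]
    constructor
    · rintro (h | ⟨z, h1, h2⟩)
      · exact Or.inl h.symm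
      · exact Or.inr ⟨z, h2, h1⟩
    · rintro (h | ⟨z, h1, h2⟩)
      · exact Or.inl h.symm
      · exact Or.inr ⟨z, h2, h1⟩
  have hbad : ∀ x, (univ.filter (fun y => R x y)).card ≤ D + D * D := by
    intro x
    refine le_trans (le_of_eq ?_) (card_bad_le Gᶜ D hD' x)
    congr 1
  obtain ⟨f, hf, hfR⟩ := exists_repairing X Y R (D + D * D) hcard hK
    (fun x _ => le_trans (card_le_card (filter_subset_filter _ (subset_univ _))) (hbad x))
    (fun y _ => by
      refine le_trans (card_le_card ?_) (hbad y)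
      intro x hx
      rw [mem_filter] at hx ⊢
      exact ⟨mem_univ _, (hRsymm x y).1 hx.2⟩)
  have hne : ∀ x ∈ X, x ≠ f x := by
    intro x hx h
    exact (Finset.disjoint_left.1 hXY hx) (h ▸ (by exact_mod_cast hf.mapsTo hx))
  have hrest : (univ \ (X ∪ Y)).card ≤ 1 := by
    rw [card_sdiff_of_subset (subset_univ _), card_univ, card_union_of_disjoint hXY, hXc, hYc]
    omega
  have hmain : HasCompleteMinor G (Fintype.card V - Y.card) := by
    refine minor_of_repairing G X Y f hXY hf ?_ ?_ ?_
    · intro x hx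
      have h := hfR x hx
      simp only [hR, not_or] at h
      by_contra hc
      exact h.1 ((SimpleGraph.compl_adj G _ _).2 ⟨hne x hx, hc⟩)
    · intro x hx v hvx hvf
      have h := hfR x hx
      simp only [hR, not_or, not_exists, not_and] at h
      by_contra hc
      rw [not_or] at hc
      exact h.2 v ((SimpleGraph.compl_adj G _ _).2 ⟨hvx.symm, hc.1⟩)
        ((SimpleGraph.compl_adj G _ _).2 ⟨hvf.symm, hc.2⟩)
    · intro u v hu1 hu2 hv1 hv2 huv
      exfalso
      have hu : u ∈ univ \ (X ∪ Y) := by simp [hu1, hu2]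
      have hv : v ∈ univ \ (X ∪ Y) := by simp [hv1, hv2]
      exact huv (card_le_one.1 hrest u hu v hv)
  have heq : Fintype.card V - Y.card = (Fintype.card V + 1) / 2 := by
    rw [hYc]
    omega
  rwa [heq] at hmain

end Vale.Agent.Lib.P060
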