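import Mathlib

namespace Vale.Agent.Lib.P060

open Finset

/-- U4. Re-pairing by Hall's theorem (`Finset.all_card_le_biUnion_card_iff_exists_injective`).
`|X| = |Y| ≥ 2K`, every `x ∈ X` is in relation `R` with at most `K` elements of `Y` and every
`y ∈ Y` with at most `K` elements of `X`.  Then there is a bijection `f : X → Y` avoiding `R`.
Hall's condition for `S ⊆ X`, `S ≠ ∅`: if `|S| ≤ |Y| - K` use one `x ∈ S`; otherwise `|S| > K`, so
every `y ∈ Y` is a non-`R`-partner of some `x ∈ S`. -/
theorem exists_repairing {V : Type*} [DecidableEq V] (X Y : Finset V) (R : V → V → Prop)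
    [DecidableRel R] (K : ℕ) (hcard : X.card = Y.card) (hK : 2 * K ≤ X.card)
    (hx : ∀ x ∈ X, (Y.filter (fun y => R x y)).card ≤ K)
    (hy : ∀ y ∈ Y, (X.filter (fun x => R x y)).card ≤ K) :
    ∃ f : V → V, Set.BijOn f X Y ∧ ∀ x ∈ X, ¬ R x (f x) := by
  classical
  let t : X → Finset V := fun x => Y.filter (fun y => ¬ R x y)
  have hall : ∀ S : Finset X, S.card ≤ (S.biUnion t).card := by
    intro S
    rcases S.eq_empty_or_nonempty with rfl | ⟨x, hxS⟩
    · simp
    by_cases hS : S.card ≤ Y.card - K
    · have h1 : t x ⊆ S.biUnion t := Finset.subset_biUnion_of_mem t hxS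
      have h2 : (Y.filter (fun y => R x y)).card + (t x).card = Y.card :=
        Finset.card_filter_add_card_filter_not (fun y => R x y)
      have h3 := hx x x.2
      have h4 := Finset.card_le_card h1
      omega
    · have hSK : K < S.card := by omega
      have hsub : Y ⊆ S.biUnion t := by
        intro y hyY
        by_contra hcon
        have hall' : ∀ x' ∈ S, R x' y := by
          intro x' hx'
          by_contra hR
          exact hcon (Finset.mem_biUnion.mpr ⟨x', hx', Finset.mem_filter.mpr ⟨hyY, hR⟩⟩)
        have h5 : S.card ≤ (X.filter (fun x => R x y)).card := by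
          rw [← Finset.card_map (Function.Embedding.subtype _)]
          apply Finset.card_le_card
          intro v hv
          obtain ⟨x', hx', rfl⟩ := Finset.mem_map.mp hv
          exact Finset.mem_filter.mpr ⟨x'.2, hall' x' hx'⟩
        have := hy y hyY
        omega
      have h6 := Finset.card_le_card hsub
      have h7 : S.card ≤ X.card := by
        have := Finset.card_le_univ S
        simpa using this
      omega
  obtain ⟨f0, hinj, hmem⟩ := (Finset.all_card_le_biUnion_card_iff_exists_injective t).mp hall
  refine ⟨fun v => if h : v ∈ X then f0 ⟨v, h⟩ else v, ?_, ?_⟩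
  · have hmaps : ∀ v ∈ X, (if h : v ∈ X then f0 ⟨v, h⟩ else v) ∈ Y := by
      intro v hv
      rw [dif_pos hv]
      exact (Finset.mem_filter.mp (hmem ⟨v, hv⟩)).1
    have hinjOn : Set.InjOn (fun v => if h : v ∈ X then f0 ⟨v, h⟩ else v) (X : Set V) := by
      intro a ha b hb hab
      have ha' : a ∈ X := ha
      have hb' : b ∈ X := hb
      simp only [dif_pos ha', dif_pos hb'] at hab
      exact congrArg Subtype.val (hinj hab)
    have himg : X.image (fun v => if h : v ∈ X then f0 ⟨v, h⟩ else v) = Y := by
      apply Finset.eq_of_subset_of_card_le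
      · intro y hy'
        obtain ⟨v, hv, rfl⟩ := Finset.mem_image.mp hy'
        exact hmaps v hv
      · rw [Finset.card_image_of_injOn hinjOn, hcard]
    refine ⟨fun v hv => hmaps v hv, hinjOn, ?_⟩
    intro y hy'
    have : y ∈ X.image (fun v => if h : v ∈ X then f0 ⟨v, h⟩ else v) := by
      rw [himg]
      exact hy'
    obtain ⟨v, hv, hvy⟩ := Finset.mem_image.mp this
    exact ⟨v, hv, hvy⟩
  · intro x hxX
    simp only [dif_pos hxX]
    exact (Finset.mem_filter.mp (hmem ⟨x, hxX⟩)).2

end Vale.Agent.Lib.P060
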