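import Vale.Agent.Lib.P060.Matching
import Vale.Agent.Lib.P060.Hall
import Vale.Agent.Lib.P060.Assemble

namespace Vale.Agent.Lib.P060

open Finset

variable {V : Type*} [Fintype V] [DecidableEq V]

/-- Hadwiger's conjecture for very dense graphs. -/
theorem hadwiger_dense (G : SimpleGraph V) [DecidableRel G.Adj] (D : ℕ)
    (hD : ∀ v, (univ.filter (fun w => w ≠ v ∧ ¬ G.Adj v w)).card ≤ D)
    (hN : 4 * D * (D + 1) ^ 2 ≤ (univ.filter (fun v => ∃ w, w ≠ v ∧ ¬ G.Adj v w)).card) :
    ∃ t : ℕ, Fintype.card V ≤ 2 * t ∧ G.Colorable t ∧ HasCompleteMinor G t := by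
  classical
  have hD' : ∀ v, (univ.filter (fun w => Gᶜ.Adj v w)).card ≤ D := by
    intro v
    refine le_trans (le_of_eq ?_) (hD v)
    congr 1
    ext w
    simp [SimpleGraph.compl_adj, ne_comm]
  have hN' : 4 * D * (D + 1) ^ 2 ≤ (univ.filter (fun v => ∃ w, Gᶜ.Adj v w)).card := by
    refine le_trans hN (le_of_eq ?_)
    congr 1
    ext v
    simp [SimpleGraph.compl_adj, ne_comm]
  obtain ⟨X, Y, m, hXY, hm, hmadj, hmax⟩ := exists_maximal_matching Gᶜ
  have hcard : X.card = Y.card := by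
    have h1 : (X : Set V).ncard = (Y : Set V).ncard := by
      rw [← hm.image_eq]
      exact hm.injOn.ncard_image.symm
    simpa [Set.ncard_coe_finset] using h1
  have hcnt := card_nonisolated_le Gᶜ D hD' X Y hmax
  have hK : 2 * (D + D * D) ≤ X.card := by
    have h1 : 4 * D * (D + 1) ^ 2 ≤ (D + 1) * (X.card + Y.card) := le_trans hN' hcnt
    rw [← hcard] at h1
    have h2 : (D + 1) * (2 * (2 * (D + D * D))) ≤ (D + 1) * (2 * X.card) := by
      calc (D + 1) * (2 * (2 * (D + D * D))) = 4 * D * (D + 1) ^ 2 := by ring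
        _ ≤ (D + 1) * (X.card + X.card) := h1
        _ = (D + 1) * (2 * X.card) := by ring
    have h3 := Nat.le_of_mul_le_mul_left h2 (Nat.succ_pos D)
    omega
  set R : V → V → Prop := fun x y => Gᶜ.Adj x y ∨ ∃ z, Gᶜ.Adj x z ∧ Gᶜ.Adj y z with hR
  have hRsymm : ∀ x y, R x y ↔ R y x := by
    intro x y
    simp only [hR]
    constructor
    · rintro (h | ⟨z, h1, h2⟩)
      · exact Or.inl h.symm
      · exact Or.inr ⟨z, h2, h1⟩
    · rintro (h | ⟨z, h1, h2⟩)
      · exact Or.inl h.symm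
      · exact Or.inr ⟨z, h2, h1⟩
  have hbad : ∀ x, (univ.filter (fun y => R x y)).card ≤ D + D * D := by
    intro x
    refine le_trans (le_of_eq ?_) (card_bad_le Gᶜ D hD' x)
    congr 1
  obtain ⟨f, hf, hfR⟩ := exists_repairing X Y R (D + D * D) hcard hK
    (fun x _ => le_trans (card_le_card (filter_subset_filter _ (subset_univ _))) (hbad x))
    (fun y _ => by
      refine le_trans (card_le_card ?_) (hbad y)
      intro x hx
      rw [mem_filter] at hx ⊢
      exact ⟨mem_univ _, (hRsymm x y).1 hx.2⟩)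
  have hne : ∀ x ∈ X, x ≠ f x := by
    intro x hx h
    exact (Finset.disjoint_left.1 hXY hx) (h ▸ (by exact_mod_cast hf.mapsTo hx))
  refine ⟨Fintype.card V - Y.card, ?_, ?_, ?_⟩
  · have h1 : (X ∪ Y).card ≤ Fintype.card V := card_le_univ _
    rw [card_union_of_disjoint hXY] at h1
    omega
  · refine colorable_of_matching G X Y m hXY hm ?_
    intro x hx
    exact ((SimpleGraph.compl_adj G _ _).1 (hmadj x hx)).2
  · refine minor_of_repairing G X Y f hXY hf ?_ ?_ ?_
    · intro x hx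
      have h := hfR x hx
      simp only [hR, not_or] at h
      by_contra hc
      exact h.1 ((SimpleGraph.compl_adj G _ _).2 ⟨hne x hx, hc⟩)
    · intro x hx v hvx hvf
      have h := hfR x hx
      simp only [hR, not_or, not_exists, not_and] at h
      by_contra hc
      rw [not_or] at hc
      exact h.2 v ((SimpleGraph.compl_adj G _ _).2 ⟨hvx.symm, hc.1⟩)
        ((SimpleGraph.compl_adj G _ _).2 ⟨hvf.symm, hc.2⟩)
    · intro u v hu1 hu2 hv1 hv2 huv
      by_contra hc
      exact hmax u v hu1 hu2 hv1 hv2 ((SimpleGraph.compl_adj G _ _).2 ⟨huv, hc⟩)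

end Vale.Agent.Lib.P060
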