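import Vale.Agent.Lib.P060.Defs

namespace Vale.Agent.Lib.P060

open Finset

variable {V : Type*} [Fintype V] [DecidableEq V]

/-- U1. A maximal matching of `H`, written as two disjoint sets `X`, `Y` and a bijection `m : X → Y`
along edges of `H`; maximality: no edge of `H` avoids `X ∪ Y`.
Proof: take a finset `P` of ordered pairs `(a,b)` with `H.Adj a b` and pairwise disjoint supports,
of maximum cardinality (or strong induction / `Finset.exists_max_image` on the finite set of all such
`P`); `X = P.image Prod.fst`, `Y = P.image Prod.snd`. -/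
theorem exists_maximal_matching (H : SimpleGraph V) :
    ∃ (X Y : Finset V) (m : V → V), Disjoint X Y ∧ Set.BijOn m X Y ∧ (∀ x ∈ X, H.Adj x (m x)) ∧
      (∀ u v, u ∉ X → u ∉ Y → v ∉ X → v ∉ Y → ¬ H.Adj u v) := by
  classical
  let S : Finset (Finset V × Finset V) := univ.filter (fun p => ∃ m : V → V,
    Disjoint p.1 p.2 ∧ Set.BijOn m p.1 p.2 ∧ ∀ x ∈ p.1, H.Adj x (m x))
  have hS : S.Nonempty := by
    refine ⟨(∅, ∅), mem_filter.2 ⟨mem_univ _, id, ?_, ?_, ?_⟩⟩
    · simp
    · simp
    · simp
  obtain ⟨⟨X, Y⟩, hXY, hmax⟩ := S.exists_max_image (fun p => p.1.card) hS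
  obtain ⟨m, hd, hb, ha⟩ := (mem_filter.1 hXY).2
  refine ⟨X, Y, m, hd, hb, ha, ?_⟩
  intro u v huX huY hvX hvY huv
  have hmem : (insert u X, insert v Y) ∈ S := by
    refine mem_filter.2 ⟨mem_univ _, Function.update m u v, ?_, ?_, ?_⟩
    · show Disjoint (insert u X) (insert v Y)
      rw [disjoint_insert_left, disjoint_insert_right]
      refine ⟨?_, hvX, hd⟩
      rw [mem_insert, not_or]
      exact ⟨huv.ne, huY⟩
    · show Set.BijOn (Function.update m u v) ((insert u X : Finset V) : Set V)
        ((insert v Y : Finset V) : Set V)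
      have h1 : Set.BijOn (Function.update m u v) (X : Set V) (Y : Set V) := by
        refine hb.congr (fun x hx => ?_)
        have : x ≠ u := fun h => huX (h ▸ hx)
        rw [Function.update_of_ne this]
      have h2 := h1.insert (a := u) (by rw [Function.update_self]; exact hvY)
      rw [Function.update_self] at h2
      rw [coe_insert, coe_insert]
      exact h2
    · intro x hx
      have hx' : x ∈ insert u X := hx
      rcases mem_insert.1 hx' with rfl | hx
      · rw [Function.update_self]; exact huv
      · have : x ≠ u := fun h => huX (h ▸ hx)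
        rw [Function.update_of_ne this]
        exact ha x hx
  have h3 := hmax _ hmem
  simp only [card_insert_of_notMem huX] at h3
  omega

/-- U2. If no edge of `H` avoids `X ∪ Y` and all degrees of `H` are at most `D`, then the number of
non-isolated vertices is at most `(D + 1) * (|X| + |Y|)`: such a vertex lies in `X ∪ Y` or is a
neighbour of a vertex of `X ∪ Y`. -/
theorem card_nonisolated_le (H : SimpleGraph V) [DecidableRel H.Adj] (D : ℕ)
    (hD : ∀ v, (univ.filter (fun w => H.Adj v w)).card ≤ D) (X Y : Finset V)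
    (hmax : ∀ u v, u ∉ X → u ∉ Y → v ∉ X → v ∉ Y → ¬ H.Adj u v) :
    (univ.filter (fun v => ∃ w, H.Adj v w)).card ≤ (D + 1) * (X.card + Y.card) := by
  classical
  have hsub : (univ.filter (fun v => ∃ w, H.Adj v w)) ⊆
      (X ∪ Y) ∪ (X ∪ Y).biUnion (fun c => univ.filter (fun w => H.Adj c w)) := by
    intro v hv
    rw [mem_filter] at hv
    obtain ⟨w, hvw⟩ := hv.2
    rw [mem_union]
    by_cases hvC : v ∈ X ∪ Y
    · exact Or.inl hvC
    · right
      rw [mem_union, not_or] at hvC
      have hwC : w ∈ X ∪ Y := by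
        by_contra hwC
        rw [mem_union, not_or] at hwC
        exact hmax v w hvC.1 hvC.2 hwC.1 hwC.2 hvw
      rw [mem_biUnion]
      exact ⟨w, hwC, by rw [mem_filter]; exact ⟨mem_univ _, hvw.symm⟩⟩
  have h1 : ((X ∪ Y).biUnion (fun c => univ.filter (fun w => H.Adj c w))).card
      ≤ (X ∪ Y).card * D := card_biUnion_le_card_mul _ _ _ (fun c _ => hD c)
  have h2 : (X ∪ Y).card ≤ X.card + Y.card := card_union_le _ _
  calc (univ.filter (fun v => ∃ w, H.Adj v w)).card
      ≤ ((X ∪ Y) ∪ (X ∪ Y).biUnion (fun c => univ.filter (fun w => H.Adj c w))).card :=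
        card_le_card hsub
    _ ≤ (X ∪ Y).card + ((X ∪ Y).biUnion (fun c => univ.filter (fun w => H.Adj c w))).card :=
        card_union_le _ _
    _ ≤ (X ∪ Y).card + (X ∪ Y).card * D := by omega
    _ = (D + 1) * (X ∪ Y).card := by ring
    _ ≤ (D + 1) * (X.card + Y.card) := Nat.mul_le_mul_left _ h2

/-- U3. At most `D + D * D` vertices are adjacent to `x` or have a common neighbour with `x`. -/
theorem card_bad_le (H : SimpleGraph V) [DecidableRel H.Adj] (D : ℕ)
    (hD : ∀ v, (univ.filter (fun w => H.Adj v w)).card ≤ D) (x : V) :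
    (univ.filter (fun y => H.Adj x y ∨ ∃ z, H.Adj x z ∧ H.Adj y z)).card ≤ D + D * D := by
  classical
  have hsub : (univ.filter (fun y => H.Adj x y ∨ ∃ z, H.Adj x z ∧ H.Adj y z)) ⊆
      (univ.filter (fun w => H.Adj x w)) ∪
        (univ.filter (fun w => H.Adj x w)).biUnion (fun z => univ.filter (fun w => H.Adj z w)) := by
    intro y hy
    rw [mem_filter] at hy
    rw [mem_union]
    rcases hy.2 with h | ⟨z, h1, h2⟩
    · left
      rw [mem_filter]
      exact ⟨mem_univ _, h⟩
    · right
      rw [mem_biUnion]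
      exact ⟨z, by rw [mem_filter]; exact ⟨mem_univ _, h1⟩,
        by rw [mem_filter]; exact ⟨mem_univ _, h2.symm⟩⟩
  have h1 : ((univ.filter (fun w => H.Adj x w)).biUnion
      (fun z => univ.filter (fun w => H.Adj z w))).card
      ≤ (univ.filter (fun w => H.Adj x w)).card * D :=
    card_biUnion_le_card_mul _ _ _ (fun c _ => hD c)
  have h2 := hD x
  calc (univ.filter (fun y => H.Adj x y ∨ ∃ z, H.Adj x z ∧ H.Adj y z)).card
      ≤ _ := card_le_card hsub
    _ ≤ (univ.filter (fun w => H.Adj x w)).card + ((univ.filter (fun w => H.Adj x w)).biUnion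
      (fun z => univ.filter (fun w => H.Adj z w))).card := card_union_le _ _
    _ ≤ (univ.filter (fun w => H.Adj x w)).card + (univ.filter (fun w => H.Adj x w)).card * D := by
        omega
    _ ≤ D + D * D := by
        have := Nat.mul_le_mul_right D h2
        omega

end Vale.Agent.Lib.P060
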