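import Vale.Agent.Lib.P060.Main

namespace Vale.Agent.Lib.P060

open Finset

variable {V : Type*} [Fintype V] [DecidableEq V]

/-- The core of the argument, for a given maximal matching of the complement. -/
theorem hadwiger_core (G : SimpleGraph V) [DecidableRel G.Adj] (D : ℕ)
    (hD : ∀ v, (univ.filter (fun w => w ≠ v ∧ ¬ G.Adj v w)).card ≤ D)
    (X Y : Finset V) (m : V → V) (hXY : Disjoint X Y) (hm : Set.BijOn m X Y)
    (hmadj : ∀ x ∈ X, Gᶜ.Adj x (m x))
    (hmax : ∀ u v, u ∉ X → u ∉ Y → v ∉ X → v ∉ Y → ¬ Gᶜ.Adj u v)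
    (hK : 2 * (D + D * D) ≤ X.card) :
    ∃ t : ℕ, Fintype.card V ≤ 2 * t ∧ G.Colorable t ∧ HasCompleteMinor G t := by
  classical
  have hD' : ∀ v, (univ.filter (fun w => Gᶜ.Adj v w)).card ≤ D := by
    intro v
    refine le_trans (le_of_eq ?_) (hD v)
    congr 1
    ext w
    simp [SimpleGraph.compl_adj, ne_comm]
  have hcard : X.card = Y.card := by
    have h1 : (X : Set V).ncard = (Y : Set V).ncard := by
      rw [← hm.image_eq]
      exact hm.injOn.ncard_image.symm
    simpa [Set.ncard_coe_finset] using h1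
  set R : V → V → Prop := fun x y => Gᶜ.Adj x y ∨ ∃ z, Gᶜ.Adj x z ∧ Gᶜ.Adj y z with hR
  have hRsymm : ∀ x y, R x y ↔ R y x := by
    intro x y
    simp only [hR]
    constructor
    · rintro (h | ⟨z, h1, h2⟩)
      · exact Or.inl h.symm
      · exact Or.inr ⟨z, h2, h1⟩
    · rintro (h | ⟨z, h1, h2⟩)
      · exact Or.inl h.symm
      · exact Or.inr ⟨z, h2, h1⟩
  have hbad : ∀ x, (univ.filter (fun y => R x y)).card ≤ D + D * D := by
    intro x
    refine le_trans (le_of_eq ?_) (card_bad_le Gᶜ D hD' x)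
    congr 1
  obtain ⟨f, hf, hfR⟩ := exists_repairing X Y R (D + D * D) hcard hK
    (fun x _ => le_trans (card_le_card (filter_subset_filter _ (subset_univ _))) (hbad x))
    (fun y _ => by
      refine le_trans (card_le_card ?_) (hbad y)
      intro x hx
      rw [mem_filter] at hx ⊢
      exact ⟨mem_univ _, (hRsymm x y).1 hx.2⟩)
  have hne : ∀ x ∈ X, x ≠ f x := by
    intro x hx h
    exact (Finset.disjoint_left.1 hXY hx) (h ▸ (by exact_mod_cast hf.mapsTo hx))
  refine ⟨Fintype.card V - Y.card, ?_, ?_, ?_⟩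
  · have h1 : (X ∪ Y).card ≤ Fintype.card V := card_le_univ _
    rw [card_union_of_disjoint hXY] at h1
    omega
  · refine colorable_of_matching G X Y m hXY hm ?_
    intro x hx
    exact ((SimpleGraph.compl_adj G _ _).1 (hmadj x hx)).2
  · refine minor_of_repairing G X Y f hXY hf ?_ ?_ ?_
    · intro x hx
      have h := hfR x hx
      simp only [hR, not_or] at h
      by_contra hc
      exact h.1 ((SimpleGraph.compl_adj G _ _).2 ⟨hne x hx, hc⟩)
    · intro x hx v hvx hvf
      have h := hfR x hx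
      simp only [hR, not_or, not_exists, not_and] at h
      by_contra hc
      rw [not_or] at hc
      exact h.2 v ((SimpleGraph.compl_adj G _ _).2 ⟨hvx.symm, hc.1⟩)
        ((SimpleGraph.compl_adj G _ _).2 ⟨hvf.symm, hc.2⟩)
    · intro u v hu1 hu2 hv1 hv2 huv
      by_contra hc
      exact hmax u v hu1 hu2 hv1 hv2 ((SimpleGraph.compl_adj G _ _).2 ⟨huv, hc⟩)

/-- Matching number version: if the complement of `G` has maximum degree at most `D` and contains
`k ≥ 4 D (D + 1)` pairwise disjoint edges `a i b i`, then `χ(G) ≤ h(G)`. -/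
theorem hadwiger_matching (G : SimpleGraph V) [DecidableRel G.Adj] (D k : ℕ)
    (hD : ∀ v, (univ.filter (fun w => w ≠ v ∧ ¬ G.Adj v w)).card ≤ D)
    (a b : Fin k → V) (hab : ∀ i, a i ≠ b i ∧ ¬ G.Adj (a i) (b i))
    (hdisj : ∀ i j, i ≠ j → a i ≠ a j ∧ a i ≠ b j ∧ b i ≠ b j)
    (hk : 4 * D * (D + 1) ≤ k) :
    ∃ t : ℕ, Fintype.card V ≤ 2 * t ∧ G.Colorable t ∧ HasCompleteMinor G t := by
  classical
  obtain ⟨X, Y, m, hXY, hm, hmadj, hmax⟩ := exists_maximal_matching Gᶜ
  have hcard : X.card = Y.card := by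
    have h1 : (X : Set V).ncard = (Y : Set V).ncard := by
      rw [← hm.image_eq]
      exact hm.injOn.ncard_image.symm
    simpa [Set.ncard_coe_finset] using h1
  -- every pair `a i, b i` meets `X ∪ Y`
  have hmeet : ∀ i, a i ∈ X ∪ Y ∨ b i ∈ X ∪ Y := by
    intro i
    by_contra hc
    rw [not_or, mem_union, mem_union, not_or, not_or] at hc
    exact hmax (a i) (b i) hc.1.1 hc.1.2 hc.2.1 hc.2.2
      ((SimpleGraph.compl_adj G _ _).2 (hab i))
  let g : Fin k → V := fun i => if a i ∈ X ∪ Y then a i else b i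
  have hg : ∀ i, g i ∈ X ∪ Y := by
    intro i
    by_cases h : a i ∈ X ∪ Y
    · simp only [g, h, if_true]
    · have := (hmeet i).resolve_left h
      simp only [g, h, if_false]
      exact this
  have hginj : Function.Injective g := by
    intro i j hij
    by_contra hne
    have h1 := hdisj i j hne
    have h2 := hdisj j i (Ne.symm hne)
    by_cases hi : a i ∈ X ∪ Y <;> by_cases hj : a j ∈ X ∪ Y <;>
      simp only [g, hi, hj, if_true, if_false] at hij
    · exact h1.1 hij
    · exact h1.2.1 hij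
    · exact h2.2.1 hij.symm
    · exact h1.2.2 hij
  have hkle : k ≤ (X ∪ Y).card := by
    have := card_le_card_of_injOn (s := (univ : Finset (Fin k))) (t := X ∪ Y) g
      (fun i _ => hg i) (hginj.injOn)
    simpa using this
  rw [card_union_of_disjoint hXY, ← hcard] at hkle
  have hK : 2 * (D + D * D) ≤ X.card := by
    have : 4 * (D + D * D) ≤ k := by
      calc 4 * (D + D * D) = 4 * D * (D + 1) := by ring
        _ ≤ k := hk
    omega
  exact hadwiger_core G D hD X Y m hXY hm hmadj hmax hK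

end Vale.Agent.Lib.P060
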